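import Vale.Agent.P280A30.Rows
import Vale.Agent.P299G11.Frm
import Vale.Agent.P299G50.Hol

/-!
# P280A: the row `TAN`
-/

set_option linter.all false

open scoped Manifold ContDiff Topology
open MvPolynomial Matrix Filter
open Vale.Agent.P272.K Vale.Agent.P300.Final Vale.Agent.P299G40 Vale.Agent.P299G11
open Vale.Agent.P009.AV (aff)

noncomputable section

namespace Vale.Agent.P280A

theorem tan_dAff {n N : ℕ} {X : Type} [TopologicalSpace X] [ChartedSpace (Cm n) X]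
    [IsManifold 𝓘(ℂ, Cm n) ω X] {Φ : X → PN N} (hΦ : IsProjectiveImmersion (Cm n) Φ)
    {e : Chart n X} {x : X} (h : At e x) {f : Cm n → Fin (N + 1) → ℂ}
    (hf : ContDiffAt ℂ ω f (e x)) (h0 : f (e x) = (Φ x).rep)
    (hev : ∀ᶠ z in 𝓝 (e x), ∃ c : ℂ, c ≠ 0 ∧ f z = c • (Φ (e.symm z)).rep)
    {i : Fin (N + 1)} (hi : (Φ x).rep i ≠ 0) (ξ : Cm n) :
    (Φ x).rep i • dAff Φ e i x ξ =
      fderiv ℂ f (e x) ξ - (fderiv ℂ f (e x) ξ i / (Φ x).rep i) • (Φ x).rep := by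
  have hd := fun j => ((P299G50.aff_holo hΦ h hi).2 j).differentiableAt (by simp)
  funext j
  have h1 : dAff Φ e i x ξ j = fderiv ℂ (fun z => aff i (Φ (e.symm z)) j) (e x) ξ := by
    have := fderiv_pi hd
    exact congrFun (congrArg (fun T : Cm n →L[ℂ] (Fin (N + 1) → ℂ) => T ξ) this) j
  rw [Pi.smul_apply, h1, fderiv_aff hf h0 hev hi]
  simp only [Pi.sub_apply, Pi.smul_apply, smul_eq_mul]
  field_simp

theorem tan : TAN := by
  intro n N Z X _ _ _ Φ hZ hA e x i h hi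
  obtain ⟨f, hf, h0, hev, him⟩ := exists_lift hA.2.1 h
  have hD := tan_dAff hA.2.1 h hf h0 hev hi
  have hmem : ∀ y, Φ y ∈ Z := fun y => hA.2.2 ▸ Set.mem_range_self y
  have hd : HasFDerivAt f (fderiv ℂ f (e x)) (e x) := (hf.differentiableAt (by simp)).hasFDerivAt
  have hLt : ∀ v, fderiv ℂ f (e x) v ∈ tangent Z (Φ x) := by
    rintro v P ⟨⟨d, hP⟩, hP0⟩
    obtain ⟨D, hD, hD'⟩ := exists_fderiv P (Φ x).rep
    have h1 : HasFDerivAt (fun z => eval (f z) P) (D.comp (fderiv ℂ f (e x))) (e x) :=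
      HasFDerivAt.comp (g := fun y => eval y P) (e x) (by rwa [h0]) hd
    have h2 : (fun z => eval (f z) P) =ᶠ[𝓝 (e x)] fun _ => 0 := by
      filter_upwards [hev] with z hz
      obtain ⟨c, -, hz⟩ := hz
      rw [hz, P009.AV.H532.eval_smul' hP, hP0 _ (hmem _), mul_zero]
    have h3 := (h1.congr_of_eventuallyEq h2.symm).unique (hasFDerivAt_const (0 : ℂ) (e x))
    rw [← hD']
    exact congrArg (fun T : Cm n →L[ℂ] ℂ => T v) h3
  have hrt : (Φ x).rep ∈ tangent Z (Φ x) := by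
    rintro P ⟨⟨d, hP⟩, hP0⟩
    have h1 := congrArg (eval (Φ x).rep) hP.sum_X_mul_pderiv
    rw [map_nsmul, hP0 _ (hmem x), smul_zero, map_sum] at h1
    simpa [polynomialDifferential] using h1
  have hin : ∀ (c : ℂ) (ξ : Cm n), c • (Φ x).rep + fderiv ℂ f (e x) ξ = 0 → c = 0 ∧ ξ = 0 := by
    intro c ξ hp
    have h1 : ξ = 0 := him ξ (-c) (by rw [neg_smul]; exact eq_neg_of_add_eq_zero_right hp)
    subst h1
    simp only [map_zero, add_zero, smul_eq_zero] at hp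
    exact ⟨hp.resolve_right (Φ x).rep_nonzero, rfl⟩
  have hsur : ∀ w ∈ tangent Z (Φ x), ∃ (c : ℂ) (ξ : Cm n),
      w = c • (Φ x).rep + fderiv ℂ f (e x) ξ := by
    let T : (ℂ × Cm n) →ₗ[ℂ] (Fin (N + 1) → ℂ) :=
      (LinearMap.toSpanSingleton ℂ _ (Φ x).rep).coprod (fderiv ℂ f (e x) : Cm n →ₗ[ℂ] _)
    have hT : ∀ p, T p = p.1 • (Φ x).rep + fderiv ℂ f (e x) p.2 := fun p => rfl
    have hinj : Function.Injective T := by
      rw [← LinearMap.ker_eq_bot, LinearMap.ker_eq_bot']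
      rintro ⟨c, ξ⟩ hp
      obtain ⟨h1, h2⟩ := hin c ξ hp
      rw [h1, h2]
      rfl
    have hle : LinearMap.range T ≤ tangent Z (Φ x) := by
      rintro _ ⟨p, rfl⟩
      rw [hT]
      exact add_mem (Submodule.smul_mem _ _ hrt) (hLt _)
    have heq := Submodule.eq_of_le_of_finrank_eq hle (by
      rw [LinearMap.finrank_range_of_inj hinj, hZ.smooth _ (hmem x)]
      simp [add_comm])
    intro w hw
    rw [← heq] at hw
    obtain ⟨p, rfl⟩ := hw
    exact ⟨p.1, p.2, hT p⟩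
  refine ⟨fun w => ⟨fun hw => ?_, ?_⟩, fun κ ξ hp => ?_, fun e' i' h' hi' ξ => ?_⟩
  · obtain ⟨c, ξ, rfl⟩ := hsur w hw
    refine ⟨c + fderiv ℂ f (e x) ξ i / (Φ x).rep i, ξ, ?_⟩
    rw [hD, add_smul]
    abel
  · rintro ⟨κ, ξ, rfl⟩
    rw [hD]
    exact add_mem (Submodule.smul_mem _ _ hrt) (sub_mem (hLt _) (Submodule.smul_mem _ _ hrt))
  · obtain ⟨h1, h2⟩ := hin (κ - fderiv ℂ f (e x) ξ i / (Φ x).rep i) ξ (by
      rw [← hp, hD, sub_smul]
      abel)
    subst h2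
    simp only [map_zero, Pi.zero_apply, zero_div, sub_zero] at h1
    exact ⟨h1, rfl⟩
  · obtain ⟨g, hg, g0, gev, -⟩ := exists_lift hA.2.1 h'
    have h2 : e' (e.symm (e x)) = e' x := by rw [h.left_inv]
    have hτ := transition h h'
    have hτ' := transition_differentiableAt h h'
    have hg' : ContDiffAt ℂ ω g (e' (e.symm (e x))) := by rwa [h2]
    have k1 : ContDiffAt ℂ ω (fun z => g (e' (e.symm z))) (e x) :=
      ContDiffAt.comp (g := g) (e x) hg' hτ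
    have k2 : ∀ᶠ z in 𝓝 (e x), ∃ c : ℂ, c ≠ 0 ∧ g (e' (e.symm z)) = c • (Φ (e.symm z)).rep := by
      have k3 : Tendsto (fun z => e' (e.symm z)) (𝓝 (e x)) (𝓝 (e' x)) := by
        rw [← h2]
        exact hτ'.continuousAt
      filter_upwards [k3.eventually gev, h.nhds_at h'] with z hz hz'
      rwa [hz'.2.2.left_inv] at hz
    have k4 : fderiv ℂ (fun z => g (e' (e.symm z))) (e x) ξ =
        fderiv ℂ g (e' x) (jacM e e' x *ᵥ ξ) := by
      have k5 := fderiv_comp (g := g) (e x) (hg'.differentiableAt (by simp)) hτ'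
      rw [h2] at k5
      have k6 : jacM e e' x *ᵥ ξ = fderiv ℂ (fun z => e' (e.symm z)) (e x) ξ := by
        funext p
        rw [jacM_eq]
        exact (jmat_mulVec hτ' ξ p).symm
      rw [k6]
      exact congrArg (fun T : Cm n →L[ℂ] (Fin (N + 1) → ℂ) => T ξ) k5
    rw [tan_dAff hA.2.1 h k1 (by rw [h2, g0]) k2 hi, tan_dAff hA.2.1 h' hg g0 gev hi', k4]
    refine ⟨fderiv ℂ g (e' x) (jacM e e' x *ᵥ ξ) i' / (Φ x).rep i' -
      fderiv ℂ g (e' x) (jacM e e' x *ᵥ ξ) i / (Φ x).rep i, ?_⟩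
    rw [sub_smul]
    abel

end Vale.Agent.P280A

end
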